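import Vale.Agent.P366P.MJac2

/-!
# P210G: states `(g, v)` with a drift 1-form `v`; definitions and pointwise calculus
-/

open Filter Topology Set
open scoped ContDiff
open Vale.Agent.P366M Vale.Agent.P366M.Gr Vale.Agent.P366M.Y.C Vale.Agent.P366M.Y.C.GbH

noncomputable section

namespace Vale.Agent.P210G

variable {n : ℕ} {M : Type} [Mf0 n M]

/-- the value of the 1-form `v` on the vector field `X` -/
def ev (v X : Fin n → M → ℝ) (x : M) : ℝ := ∑ i, v i x * X i x

/-- the vector field dual to a 1-form -/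
def sh (g : Fld n M) (v : Fin n → M → ℝ) (i : Fin n) (x : M) : ℝ := ∑ j, up g i j x * v j x

/-- the inner product of two 1-forms -/
def iv (g : Fld n M) (a b : Fin n → M → ℝ) (x : M) : ℝ := ∑ i, ∑ j, up g i j x * a i x * b j x

/-- the differential -/
def df (u : M → ℝ) : Fin n → M → ℝ := fun i => pd i u

/-- the divergence with drift, `div X - v X` -/
def Dv (g : Fld n M) (v X : Fin n → M → ℝ) (x : M) : ℝ := dv g X x - ev v X x

/-- the Laplacian with drift -/
def Lv (g : Fld n M) (v : Fin n → M → ℝ) (u : M → ℝ) (x : M) : ℝ := lap g u x - iv g v (df u) x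

/-- the scalar curvature of the state, `R + 2 div v - |v|²` -/
def Rv (g : Fld n M) (v : Fin n → M → ℝ) (x : M) : ℝ :=
  scal g x + 2 * dv g (sh g v) x - iv g v v x

/-- the mean curvature with drift of the graph of `w` -/
def hv (g : Fld n M) (v : Fin n → M → ℝ) (w : M → ℝ) : M → ℝ := Dv g v (nv g w)

/-- `log W` -/
def lw (g : Fld n M) (w : M → ℝ) (x : M) : ℝ := Real.log (ww g 1 w x)

/-- the drift on the graph of `w` -/
def vg (g : Fld n M) (v : Fin n → M → ℝ) (w : M → ℝ) : Fin n → M → ℝ :=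
  fun i x => v i x + pd i (lw g w) x

variable {g : Fld n M} {v a b c X Y : Fin n → M → ℝ} {u w f : M → ℝ} {x : M}
  {m : WithTop ℕ∞}

/-! ### algebra -/

theorem iv_eq_ev (g : Fld n M) (a b : Fin n → M → ℝ) (x : M) : iv g a b x = ev a (sh g b) x := by
  simp only [iv, ev, sh, Finset.mul_sum]
  exact Finset.sum_congr rfl fun _ _ => Finset.sum_congr rfl fun _ _ => by ring

theorem iv_df (g : Fld n M) (u w : M → ℝ) : iv g (df u) (df w) = ip g u w := rfl

theorem sh_df (g : Fld n M) (u : M → ℝ) : sh g (df u) = gr g u := rfl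

theorem iv_sy (hg : Met g) (a b : Fin n → M → ℝ) (x : M) : iv g a b x = iv g b a x := by
  unfold iv
  rw [Finset.sum_comm]
  exact Finset.sum_congr rfl fun i _ => Finset.sum_congr rfl fun j _ => by rw [hg.up_sy]; ring

theorem iv_nonneg (hg : Met g) (a : Fin n → M → ℝ) (x : M) : 0 ≤ iv g a a x :=
  hg.up_nonneg x fun i => a i x

theorem iv_cs (hg : Met g) (a b : Fin n → M → ℝ) (x : M) :
    iv g a b x ^ 2 ≤ iv g a a x * iv g b b x := hg.up_cs x _ _

/-- linearity in the first argument, at a point -/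
theorem iv_lin {s t : ℝ} (h : ∀ i, a i x = s * b i x + t * c i x) (d : Fin n → M → ℝ) :
    iv g a d x = s * iv g b d x + t * iv g c d x := by
  simp only [iv, h, Finset.mul_sum, ← Finset.sum_add_distrib]
  exact Finset.sum_congr rfl fun _ _ => Finset.sum_congr rfl fun _ _ => by ring

/-- linearity in the second argument, at a point -/
theorem iv_lin' {s t : ℝ} (h : ∀ i, a i x = s * b i x + t * c i x) (d : Fin n → M → ℝ) :
    iv g d a x = s * iv g d b x + t * iv g d c x := by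
  simp only [iv, h, Finset.mul_sum, ← Finset.sum_add_distrib]
  exact Finset.sum_congr rfl fun _ _ => Finset.sum_congr rfl fun _ _ => by ring

theorem iv_sq (hg : Met g) {s t : ℝ} (h : ∀ i, a i x = s * b i x + t * c i x) :
    iv g a a x = s ^ 2 * iv g b b x + 2 * s * t * iv g b c x + t ^ 2 * iv g c c x := by
  rw [iv_lin h, iv_lin' h, iv_lin' h, iv_sy hg c b]; ring

theorem iv_smul {s t : ℝ} {a' b' : Fin n → M → ℝ} (h : ∀ i, a' i x = s * a i x)
    (h' : ∀ i, b' i x = t * b i x) : iv g a' b' x = s * t * iv g a b x := by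
  simp only [iv, h, h', Finset.mul_sum]
  exact Finset.sum_congr rfl fun _ _ => Finset.sum_congr rfl fun _ _ => by ring

theorem iv_congr {a' b' : Fin n → M → ℝ} (h : ∀ i, a' i x = a i x) (h' : ∀ i, b' i x = b i x) :
    iv g a' b' x = iv g a b x := by simp only [iv, h, h']

/-- `2 ⟨a, b⟩ ≤ s |a|² + |b|² / s` -/
theorem two_iv_le (hg : Met g) (a b : Fin n → M → ℝ) (x : M) {s : ℝ} (hs : 0 < s) :
    2 * |iv g a b x| ≤ s * iv g a a x + iv g b b x / s := by
  have h1 := iv_nonneg hg (fun i y => s * a i y + (-1) * b i y) x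
  have h2 := iv_nonneg hg (fun i y => s * a i y + 1 * b i y) x
  rw [iv_sq hg (b := a) (c := b) fun _ => rfl] at h1 h2
  rw [← mul_le_mul_iff_right₀ hs, mul_add, mul_div_cancel₀ _ hs.ne']
  rcases abs_cases (iv g a b x) with h | h <;> rw [h.1] <;> nlinarith

theorem iv_sum {ι : Type*} (s : Finset ι) {A : ι → Fin n → M → ℝ} {t : ι → ℝ}
    (h : ∀ i, a i x = ∑ k ∈ s, t k * A k i x) (d : Fin n → M → ℝ) :
    iv g a d x = ∑ k ∈ s, t k * iv g (A k) d x := by
  simp only [iv, h, Finset.mul_sum, Finset.sum_mul]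
  rw [Finset.sum_comm]
  conv_rhs => rw [Finset.sum_comm]
  rw [Finset.sum_comm]
  refine Finset.sum_congr rfl fun i _ => ?_
  rw [Finset.sum_comm]
  exact Finset.sum_congr rfl fun _ _ => Finset.sum_congr rfl fun _ _ => by ring

theorem ev_lin {s t : ℝ} (h : ∀ i, a i x = s * b i x + t * c i x) (X : Fin n → M → ℝ) :
    ev a X x = s * ev b X x + t * ev c X x := by
  simp only [ev, h, Finset.mul_sum, ← Finset.sum_add_distrib]
  exact Finset.sum_congr rfl fun _ _ => by ring

theorem ev_lin' {s t : ℝ} {Z : Fin n → M → ℝ} (h : ∀ i, Z i x = s * X i x + t * Y i x)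
    (a : Fin n → M → ℝ) : ev a Z x = s * ev a X x + t * ev a Y x := by
  simp only [ev, h, Finset.mul_sum, ← Finset.sum_add_distrib]
  exact Finset.sum_congr rfl fun _ _ => by ring

theorem sh_add (g : Fld n M) (a b : Fin n → M → ℝ) :
    sh g (fun i y => a i y + b i y) = fun i y => sh g a i y + sh g b i y := by
  funext i y; simp only [sh, mul_add, Finset.sum_add_distrib]

theorem sh_smul (g : Fld n M) (f : M → ℝ) (a : Fin n → M → ℝ) :
    sh g (fun i y => f y * a i y) = fun i y => f y * sh g a i y := by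
  funext i y; simp only [sh, Finset.mul_sum, mul_left_comm]

theorem sh_sum {ι : Type*} (s : Finset ι) (g : Fld n M) (A : ι → Fin n → M → ℝ) :
    sh g (fun i y => ∑ k ∈ s, A k i y) = fun i y => ∑ k ∈ s, sh g (A k) i y := by
  funext i y; simp only [sh, Finset.mul_sum]; rw [Finset.sum_comm]

theorem ev_df_nv (hg : Met g) (w u : M → ℝ) (x : M) : ev (df u) (nv g w) x = dn g w u x :=
  (dn_eq hg w u x).symm

theorem ev_nv (g : Fld n M) (a : Fin n → M → ℝ) (w : M → ℝ) (x : M) :
    ev a (nv g w) x = iv g a (df w) x / ww g 1 w x := by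
  rw [iv_eq_ev, sh_df, ev, ev, Finset.sum_div]
  exact Finset.sum_congr rfl fun _ _ => by rw [nv, mul_div_assoc]

/-! ### smoothness -/

theorem cc_df (hu : Smooth u) : CC ∞ (df u) := hu.cc_pd

theorem cv_sh (hg : Met g) (hm : m ≤ ∞) (ha : CC m a) : CV m (sh g a) := SmU.raise hg.sm_up hm ha

theorem cd_ev (ha : CC m a) (hX : CV m X) : CD m (ev a X) := ha.dot hX

theorem cd_iv (hg : Met g) (hm : m ≤ ∞) (ha : CC m a) (hb : CC m b) : CD m (iv g a b) :=
  hg.cd_cov hm ha hb

theorem sm_Dv (hg : Met g) (hv : CC ∞ v) (hX : CV ∞ X) : Smooth (Dv g v X) :=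
  CD.sub (hg.sm_dv hX) (cd_ev hv hX)

theorem sm_Lv (hg : Met g) (hv : CC ∞ v) (hu : Smooth u) : Smooth (Lv g v u) :=
  CD.sub (hg.sm_lap hu) (cd_iv hg le_rfl hv (cc_df hu))

theorem sm_Rv (hg : Met g) (hv : CC ∞ v) : Smooth (Rv g v) :=
  CD.sub (CD.add hg.sm_scal (CD.mul cd_const (hg.sm_dv (cv_sh hg le_rfl hv))))
    (cd_iv hg le_rfl hv hv)

theorem sm_hv (hg : Met g) (hv' : CC ∞ v) (hw : Smooth w) : Smooth (hv g v w) :=
  sm_Dv hg hv' (cv_nv hg hw)

theorem sm_lw (hg : Met g) (hw : Smooth w) : Smooth (lw g w) :=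
  CD.log (sm_w hg hw) fun x => (w_pos hg w x).ne'

theorem cc_vg (hg : Met g) (hv : CC ∞ v) (hw : Smooth w) : CC ∞ (vg g v w) :=
  hv.add (sm_lw hg hw).cc_pd

theorem dV_sh (hg : Met g) (ha : CC ∞ a) (x : M) : DV (sh g a) x :=
  (cv_sh hg le_rfl ha).dv (by simp) x

/-! ### the divergence with drift -/

theorem Dv_congr (e : ∀ i, X i =ᶠ[𝓝 x] Y i) : Dv g v X x = Dv g v Y x := by
  simp only [Dv, ev, dv_congr e, fun i => (e i).self_of_nhds]

theorem Dv_add (hg : Met g) (hX : DV X x) (hY : DV Y x) :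
    Dv g v (fun i y => X i y + Y i y) x = Dv g v X x + Dv g v Y x := by
  rw [Dv, hg.dv_add hX hY, ev_lin' (s := 1) (t := 1) (X := X) (Y := Y) (by simp), Dv, Dv]; ring

theorem Dv_sub (hg : Met g) (hX : DV X x) (hY : DV Y x) :
    Dv g v (fun i y => X i y - Y i y) x = Dv g v X x - Dv g v Y x := by
  rw [Dv, hg.dv_sub hX hY, ev_lin' (s := 1) (t := -1) (X := X) (Y := Y) (fun _ => by ring), Dv, Dv]
  ring

theorem Dv_smul (hg : Met g) (hf : DAt f x) (hX : DV X x) :
    Dv g v (fun i y => f y * X i y) x = f x * Dv g v X x + ev (df f) X x := by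
  rw [Dv, hg.dv_smul hf hX, ev_lin' (s := f x) (t := 0) (X := X) (Y := X) (by simp), Dv]
  simp only [ev, df]
  ring

theorem Dv_const_mul (t : ℝ) : Dv g v (fun i y => t * X i y) x = t * Dv g v X x := by
  rw [Dv, dv_const_mul, ev_lin' (s := t) (t := 0) (X := X) (Y := X) (by simp), Dv]; ring

theorem Dv_sum (hg : Met g) {ι : Type*} (s : Finset ι) {Z : ι → Fin n → M → ℝ}
    (hZ : ∀ k, DV (Z k) x) :
    Dv g v (fun i y => ∑ k ∈ s, Z k i y) x = ∑ k ∈ s, Dv g v (Z k) x := by
  simp only [Dv, hg.dv_sum s hZ, ev, Finset.mul_sum, Finset.sum_sub_distrib]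
  rw [Finset.sum_comm]

theorem Lv_eq_Dv (g : Fld n M) (v : Fin n → M → ℝ) (hu : CAt 2 u x) :
    Lv g v u x = Dv g v (gr g u) x := by
  rw [Lv, Dv, lap_eq_dv g hu, iv_eq_ev, sh_df]

theorem Rv_eq (g : Fld n M) (v : Fin n → M → ℝ) (x : M) :
    Rv g v x = scal g x + 2 * Dv g v (sh g v) x + iv g v v x := by
  rw [Rv, Dv, iv_eq_ev]; ring

/-! ### change of the drift -/

/-- adding a 1-form to the drift -/
theorem Rv_add (hg : Met g) (hv : DV (sh g v) x) (ha : DV (sh g a) x) :
    Rv g (fun i y => v i y + a i y) x = Rv g v x + 2 * Dv g v (sh g a) x - iv g a a x := by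
  rw [Rv, sh_add, hg.dv_add hv ha, iv_sq hg (s := 1) (t := 1) (b := v) (c := a) (by simp), Rv, Dv,
    ← iv_eq_ev]
  ring

theorem Rv_congr {v' : Fin n → M → ℝ} (e : ∀ i, v i =ᶠ[𝓝 x] v' i) : Rv g v x = Rv g v' x := by
  have h : ∀ i, sh g v i =ᶠ[𝓝 x] sh g v' i := fun i =>
    (eventually_all.2 e).mono fun y hy => by simp only [sh, hy]
  rw [Rv, Rv, dv_congr h, iv_congr (fun i => (e i).self_of_nhds) fun i => (e i).self_of_nhds]

theorem Rv_zero (g : Fld n M) (x : M) : Rv g (fun _ _ => 0) x = scal g x := by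
  have h : sh g (fun _ _ => 0) = fun i y => 0 * sh g (fun _ _ => 0) i y := by
    funext i y; simp [sh]
  rw [Rv, h, dv_const_mul]
  simp [iv]

/-- gradient drifts -/
theorem Rv_neg_df (hf : CAt 2 f x) : Rv g (fun i y => -pd i f y) x = P366D.Rf g f x := by
  have h : sh g (fun i y => -pd i f y) = fun i y => -gr g f i y := by
    funext i y; simp only [sh, gr, mul_neg, Finset.sum_neg_distrib]
  rw [Rv, h, dv_neg, ← lap_eq_dv g hf, P366D.Rf, ← iv_df,
    iv_smul (s := -1) (t := -1) (a := df f) (b := df f) (by simp [df]) (by simp [df])]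
  ring

theorem hv_neg_df (hg : Met g) (f w : M → ℝ) (x : M) :
    hv g (fun i y => -pd i f y) w x = hw g f w x := by
  rw [hv, Dv, hw, dn_eq hg]
  simp only [ev, neg_mul, Finset.sum_neg_distrib, sub_neg_eq_add]

/-- adding a multiple of a gradient to the drift -/
theorem Rv_add_df (hg : Met g) (hv : DV (sh g v) x) (hf : CAt 2 f x) (t : ℝ) :
    Rv g (fun i y => v i y + t * pd i f y) x =
      Rv g v x + 2 * t * Lv g v f x - t ^ 2 * ip g f f x := by
  have h : sh g (fun i y => t * pd i f y) = fun i y => t * gr g f i y := sh_smul g (fun _ => t) _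
  rw [Rv_add hg hv (a := fun i y => t * pd i f y) (h ▸ DV.smul (dAt_const t) (hg.diff_gr hf)), h,
    Dv_const_mul, Lv_eq_Dv g v hf, ← iv_df,
    iv_smul (s := t) (t := t) (a := df f) (b := df f) (fun _ => rfl) fun _ => rfl]
  ring

theorem Lv_comp (hg : Met g) {χ : ℝ → ℝ} (hu : CAt 2 u x) (hχ : ContDiffAt ℝ 2 χ (u x)) :
    Lv g v (fun y => χ (u y)) x =
      deriv χ (u x) * Lv g v u x + deriv (deriv χ) (u x) * ip g u u x := by
  have h1 : iv g v (df fun y => χ (u y)) x = 1 * deriv χ (u x) * iv g v (df u) x :=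
    iv_smul (fun _ => (one_mul _).symm) fun i =>
      pd_comp (hχ.differentiableAt (by norm_num)).hasDerivAt (diff2 hu) i
  rw [Lv, Lv, hg.lap_comp hu hχ, h1]
  ring

theorem Lv_log (hg : Met g) (hu : CAt 2 u x) (h0 : 0 < u x) :
    Lv g v (fun y => Real.log (u y)) x = Lv g v u x / u x - ip g u u x / u x ^ 2 := by
  have d2 : deriv (deriv Real.log) (u x) = -(u x ^ 2)⁻¹ := by
    rw [Real.deriv_log', deriv_inv]
  rw [Lv_comp hg hu (Real.contDiffAt_log.2 h0.ne'), d2, Real.deriv_log]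
  ring

/-- the change of weight `v + t dlog A` -/
theorem Rv_add_log (hg : Met g) (hv : DV (sh g v) x) (hu : CAt 2 u x) (h0 : 0 < u x) (t : ℝ) :
    Rv g (fun i y => v i y + t * pd i (fun z => Real.log (u z)) y) x =
      Rv g v x + 2 * t * (Lv g v u x / u x) - (2 * t + t ^ 2) * (ip g u u x / u x ^ 2) := by
  have hl : CAt 2 (fun z => Real.log (u z)) x := ContDiffAt.log hu (by simpa using h0.ne')
  have h1 : ip g (fun z => Real.log (u z)) (fun z => Real.log (u z)) x = ip g u u x / u x ^ 2 := by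
    rw [ip_comp_left (Real.hasDerivAt_log h0.ne') (diff2 hu),
      ip_comp_right (Real.hasDerivAt_log h0.ne') (diff2 hu)]
    field_simp
  rw [Rv_add_df hg hv hl, Lv_log hg hu h0, h1]
  ring

end Vale.Agent.P210G
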