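import Vale.Agent.P210G.Defs

/-!
# P210G: the exact graph identity; concavity and localisation of drifts
-/

open Filter Topology Set
open scoped ContDiff
open Vale.Agent.P366M Vale.Agent.P366M.Gr Vale.Agent.P366M.Y.C Vale.Agent.P366M.Y.C.GbH

noncomputable section

namespace Vale.Agent.P210G

variable {n : ℕ} {M : Type} [Mf0 n M] {g : Fld n M} {v a b X : Fin n → M → ℝ} {u w : M → ℝ} {x : M}

/-! ### the graph move -/

theorem up_g (hg : Met g) (w : M → ℝ) (i j : Fin n) (x : M) :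
    up (gb g 1 w) i j x = up g i j x - nv g w i x * nv g w j x := by
  have := (w_pos hg w x).ne'
  rw [up_gb hg, nv, nv, Pi.one_apply]; field_simp

theorem sh_g (hg : Met g) (w : M → ℝ) (a : Fin n → M → ℝ) (i : Fin n) (x : M) :
    sh (gb g 1 w) a i x = sh g a i x - ev a (nv g w) x * nv g w i x := by
  simp only [sh, ev, up_g hg, Finset.sum_mul, ← Finset.sum_sub_distrib]
  exact Finset.sum_congr rfl fun _ _ => by ring

theorem iv_g (hg : Met g) (w : M → ℝ) (a b : Fin n → M → ℝ) (x : M) :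
    iv (gb g 1 w) a b x = iv g a b x - ev a (nv g w) x * ev b (nv g w) x := by
  rw [iv_eq_ev, iv_eq_ev, ev_lin' (s := 1) (t := -ev b (nv g w) x) (X := sh g b) (Y := nv g w)
    fun i => by rw [sh_g hg]; ring]
  ring

theorem iv_g_le (hg : Met g) (w : M → ℝ) (a : Fin n → M → ℝ) (x : M) :
    iv (gb g 1 w) a a x ≤ iv g a a x := by
  rw [iv_g hg]; nlinarith [mul_self_nonneg (ev a (nv g w) x)]

theorem pd_lw (hg : Met g) (hw : CAt 2 w x) (i : Fin n) :
    pd i (lw g w) x = pd i (ww g 1 w) x / ww g 1 w x :=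
  pd_log (dAt_w hg hw) (w_pos hg w x).ne' i

theorem dv_g (hg : Met g) (hw : Smooth w) (hX : DV X x) :
    dv (gb g 1 w) X x = dv g X x + ev (df (lw g w)) X x := by
  have h0 := (w_pos hg w x).ne'
  rw [dv_gb hg 1 hw.diff, hg.dv_smul ((sm_w hg hw).diff x) hX, add_div, mul_div_cancel_left₀ _ h0,
    Finset.sum_div]
  simp only [ev, df, pd_lw hg (hw.c2 x)]
  congr 1
  exact Finset.sum_congr rfl fun _ _ => by ring

/-- the divergence with drift is invariant under the graph move -/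
theorem Dv_g (hg : Met g) (hw : Smooth w) (hX : DV X x) :
    Dv (gb g 1 w) (vg g v w) X x = Dv g v X x := by
  rw [Dv, Dv, dv_g hg hw hX,
    ev_lin (s := 1) (t := 1) (a := vg g v w) (b := v) (c := df (lw g w)) (by simp [vg, df])]
  ring

/-- the Laplacian with drift after the graph move -/
theorem Lv_g (hg : Met g) (hw : Smooth w) (hu : Smooth u) (x : M) :
    Lv (gb g 1 w) (vg g v w) u x =
      Lv g v u x - dn g w u x * hv g v w x - dn g w (dn g w u) x := by
  have e : gr (gb g 1 w) u = fun i y => gr g u i y - dn g w u y * nv g w i y := by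
    funext i y
    rw [← sh_df, sh_g hg, ev_df_nv hg, sh_df]
  have d1 := dV_nv hg (hw.c2 x)
  have d2 := (sm_dn hg hw hu).diff x
  rw [Lv_eq_Dv _ _ (hu.c2 x), Dv_g hg hw ((met_g hg hw).diff_gr (hu.c2 x)), e,
    Dv_sub hg (hg.diff_gr (hu.c2 x)) (DV.smul d2 d1), Dv_smul hg d2 d1, ev_df_nv hg,
    ← Lv_eq_Dv _ _ (hu.c2 x), hv]
  ring

/-- **the exact graph identity** -/
theorem gid (hg : Met g) (hv' : CC ∞ v) (hw : Smooth w) (x : M) :
    Rv (gb g 1 w) (vg g v w) x = Rv g v x + hv g v w x ^ 2 + a2 g w x +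
      ip (gb g 1 w) (lw g w) (lw g w) x + 2 * dn g w (hv g v w) x := by
  have hg' := met_g hg hw
  have sl := sm_lw hg hw
  have h1 := jac_sy hg (φ := fun _ => 0) cd_const hw x
  have z1 : ∀ G : Fld n M, P366D.Rf G (fun _ => 0) x = scal G x := fun G => by
    rw [P366D.Rf, lap_const, ip_const_left]; ring
  have z2 : Gr.hw g (fun _ => 0) w = dv g (nv g w) := by
    funext y; rw [Gr.hw, dn, ip_const_right]; ring
  rw [z1, z1, z2, ip_const_left] at h1
  have h2 := Rv_add_df (v := v) hg' (dV_sh hg' hv' x) (sl.c2 x) 1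
  have e0 : vg g v w = fun i y => v i y + 1 * pd i (lw g w) y := by
    funext i y; rw [vg, one_mul]
  have e1 : sh (gb g 1 w) v = fun i y => sh g v i y - ev v (nv g w) y * nv g w i y := by
    funext i y; exact sh_g hg w v i y
  have d1 := dV_nv hg (hw.c2 x)
  have d2 : DAt (ev v (nv g w)) x := Smooth.diff (cd_ev hv' (cv_nv hg hw)) x
  have h3 := dv_g hg hw (dV_sh hg' hv' x)
  rw [← iv_eq_ev, iv_sy hg', e1, hg.dv_sub (dV_sh hg hv' x) (DV.smul d2 d1), hg.dv_smul d2 d1,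
    ← dn_eq hg, ← e1] at h3
  have h4 : dn g w (hv g v w) x = dn g w (dv g (nv g w)) x - dn g w (ev v (nv g w)) x := by
    rw [dn_lin (s := 1) (t := -1) (w := dv g (nv g w)) (ζ := ev v (nv g w)) fun i => by
      rw [show hv g v w = fun y => dv g (nv g w) y - ev v (nv g w) y from rfl,
        pd_sub ((hg.sm_dv (cv_nv hg hw)).diff x) d2]; ring]
    ring
  have h5 : hv g v w x = dv g (nv g w) x - ev v (nv g w) x := rfl
  rw [e0, h2, Rv, Rv, h3, iv_g hg w v v, Lv, h4, h5]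
  change 2 * (lap (gb g 1 w) (lw g w) x + 0) = _ + 2 * ip (gb g 1 w) (lw g w) (lw g w) x at h1
  linarith

/-- the graph move does not lose more than `2 |dH|` -/
theorem gid_ge (hg : Met g) (hv' : CC ∞ v) (hw : Smooth w) (x : M) :
    Rv g v x + hv g v w x ^ 2 + 2 * dn g w (hv g v w) x ≤ Rv (gb g 1 w) (vg g v w) x := by
  rw [gid hg hv' hw]
  linarith [a2_nonneg hg hw x, (met_g hg hw).ip_nonneg (lw g w) x]

/-! ### concavity -/

/-- convex combinations with variable coefficients -/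
theorem Rv_comb (hg : Met g) {ι : Type*} (s : Finset ι) {χ : ι → M → ℝ} {V : ι → Fin n → M → ℝ}
    (hχ : ∀ k, DAt (χ k) x) (hV : ∀ k, DV (sh g (V k)) x) (h1 : ∑ k ∈ s, χ k x = 1) :
    Rv g (fun i y => ∑ k ∈ s, χ k y * V k i y) x = ∑ k ∈ s, χ k x * Rv g (V k) x +
      (∑ k ∈ s, χ k x * iv g (V k) (V k) x -
        iv g (fun i y => ∑ k ∈ s, χ k y * V k i y) (fun i y => ∑ k ∈ s, χ k y * V k i y) x) +
      2 * ∑ k ∈ s, iv g (df (χ k)) (V k) x := by
  rw [Rv, sh_sum s g fun k i y => χ k y * V k i y]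
  simp only [sh_smul]
  rw [hg.dv_sum s fun k => DV.smul (hχ k) (hV k)]
  have e : ∀ k, dv g (fun i y => χ k y * sh g (V k) i y) x =
      χ k x * dv g (sh g (V k)) x + iv g (df (χ k)) (V k) x := fun k => by
    rw [hg.dv_smul (hχ k) (hV k), iv_eq_ev]; rfl
  simp only [e, Rv, mul_add, mul_sub, Finset.sum_add_distrib, Finset.sum_sub_distrib,
    ← Finset.sum_mul, h1, mul_left_comm _ (2 : ℝ), ← Finset.mul_sum]
  ring

/-- **localisation**: for `∑ φ_k² = 1` the drift `∑ φ_k² v_k` loses at most `4 ∑ |dφ_k|²` -/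
theorem Rv_loc (hg : Met g) {ι : Type*} (s : Finset ι) {φ : ι → M → ℝ} {V : ι → Fin n → M → ℝ}
    (hφ : ∀ k, DAt (φ k) x) (hV : ∀ k, DV (sh g (V k)) x)
    (h1 : ∀ᶠ y in 𝓝 x, ∑ k ∈ s, φ k y ^ 2 = 1) :
    ∑ k ∈ s, φ k x ^ 2 * Rv g (V k) x - 4 * ∑ k ∈ s, ip g (φ k) (φ k) x ≤
      Rv g (fun i y => ∑ k ∈ s, φ k y ^ 2 * V k i y) x := by
  have d : ∀ k, DAt (fun y => φ k y ^ 2) x := fun k => (hφ k).pow 2
  rw [Rv_comb hg s d hV h1.self_of_nhds]
  set m : Fin n → M → ℝ := fun i y => ∑ k ∈ s, φ k y ^ 2 * V k i y with hm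
  have p1 : ∀ k i, df (fun y => φ k y ^ 2) i x = 2 * φ k x * df (φ k) i x := fun k i => by
    have := pd_pow (hφ k) 2 i
    simpa [df] using this
  have p2 : ∀ i, ∑ k ∈ s, φ k x * df (φ k) i x = 0 := fun i => by
    have h2 : pd i (fun y => ∑ k ∈ s, φ k y ^ 2) x = 0 := by
      rw [pd_congr (h := fun _ => 1) h1, pd_const]
    rw [pd_sum s fun k _ => d k] at h2
    have h3 : ∑ k ∈ s, pd i (fun y => φ k y ^ 2) x = 2 * ∑ k ∈ s, φ k x * df (φ k) i x := by
      rw [Finset.mul_sum]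
      exact Finset.sum_congr rfl fun k _ => (p1 k i).trans (by ring)
    linarith
  have q1 : ∑ k ∈ s, φ k x * iv g (df (φ k)) m x = 0 := by
    rw [← iv_sum s (a := fun _ _ => 0) (fun i => (p2 i).symm)]
    simp [iv]
  have q2 : iv g m m x = ∑ k ∈ s, φ k x ^ 2 * iv g (V k) m x := iv_sum s (fun _ => rfl) m
  have q3 : ∀ k, 0 ≤ φ k x ^ 2 * iv g (V k) (V k) x - 2 * (φ k x ^ 2 * iv g (V k) m x) +
      φ k x ^ 2 * iv g m m x + 2 * iv g (df fun y => φ k y ^ 2) (V k) x -
      4 * (φ k x * iv g (df (φ k)) m x) + 4 * ip g (φ k) (φ k) x := fun k => by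
    have r1 := iv_nonneg hg (fun i y => φ k x * (V k i y - m i y) + 2 * df (φ k) i y) x
    rw [iv_sq hg (b := fun i y => V k i y - m i y) (c := df (φ k)) fun _ => rfl,
      iv_sq hg (s := 1) (t := -1) (b := V k) (c := m) fun _ => by ring,
      iv_lin (s := 1) (t := -1) (a := fun i y => V k i y - m i y) (b := V k) (c := m)
        fun _ => by ring, iv_df,
      iv_sy hg (V k) (df _), iv_sy hg m (df _)] at r1
    rw [iv_smul (s := 2 * φ k x) (t := 1) (a := df (φ k)) (b := V k) (p1 k) fun _ =>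
      (one_mul _).symm]
    linarith
  have q4 := Finset.sum_nonneg fun k (_ : k ∈ s) => q3 k
  simp only [Finset.sum_add_distrib, Finset.sum_sub_distrib, ← Finset.mul_sum, ← Finset.sum_mul,
    h1.self_of_nhds, q1, ← q2] at q4
  linarith

/-- concavity: constant coefficients -/
theorem Rv_conc (hg : Met g) {ι : Type*} (s : Finset ι) {t : ι → ℝ} {V : ι → Fin n → M → ℝ}
    (ht : ∀ k ∈ s, 0 ≤ t k) (hV : ∀ k, DV (sh g (V k)) x) (h1 : ∑ k ∈ s, t k = 1) :
    ∑ k ∈ s, t k * Rv g (V k) x ≤ Rv g (fun i y => ∑ k ∈ s, t k * V k i y) x := by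
  have e : ∀ k ∈ s, √(t k) ^ 2 = t k := fun k hk => Real.sq_sqrt (ht k hk)
  have h := Rv_loc hg s (φ := fun k _ => √(t k)) (fun k => dAt_const _) hV
    (.of_forall fun _ => (Finset.sum_congr rfl e).trans h1)
  simp only [ip_const_left, Finset.sum_const_zero, mul_zero, sub_zero] at h
  rw [Finset.sum_congr rfl fun k hk => by rw [e k hk],
    show (fun i y => ∑ k ∈ s, √(t k) ^ 2 * V k i y) = fun i y => ∑ k ∈ s, t k * V k i y from
      funext fun i => funext fun y => Finset.sum_congr rfl fun k hk => by rw [e k hk]] at h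
  exact h

/-- interpolation of two drifts with `χ = sin² β` costs `4 |dβ|²` -/
theorem Rv_sin (hg : Met g) {β : M → ℝ} (hβ : DAt β x) (ha : DV (sh g a) x) (hb : DV (sh g b) x) :
    Real.sin (β x) ^ 2 * Rv g a x + Real.cos (β x) ^ 2 * Rv g b x - 4 * ip g β β x ≤
      Rv g (fun i y => Real.sin (β y) ^ 2 * a i y + Real.cos (β y) ^ 2 * b i y) x := by
  have h := Rv_loc hg Finset.univ (φ := ![fun y => Real.sin (β y), fun y => Real.cos (β y)])
    (V := ![a, b]) (Fin.forall_fin_two.2 ⟨DifferentiableAt.sin hβ, DifferentiableAt.cos hβ⟩)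
    (Fin.forall_fin_two.2 ⟨ha, hb⟩) (.of_forall fun y => by simp)
  simp only [Fin.sum_univ_two, Matrix.cons_val_zero, Matrix.cons_val_one] at h
  rw [ip_comp_left (Real.hasDerivAt_sin _) hβ, ip_comp_right (Real.hasDerivAt_sin _) hβ,
    ip_comp_left (Real.hasDerivAt_cos _) hβ, ip_comp_right (Real.hasDerivAt_cos _) hβ] at h
  have := Real.sin_sq_add_cos_sq (β x)
  refine le_trans (le_of_eq ?_) h
  linear_combination (4 * ip g β β x) * this

end Vale.Agent.P210G
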