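import Vale.Agent.P210G.Gid
import Vale.Agent.P366D.Pos
import Vale.Agent.P366Q.T.Subs

/-!
# P210G: the spectral form of a lower bound for `Rv`; from drifts to gradient drifts
-/

open MeasureTheory Filter Topology Set
open scoped ContDiff
open Vale.Agent.P366M Vale.Agent.P366M.Gr Vale.Agent.P366M.Y.C Vale.Agent.P366M.Y.C.GbH

noncomputable section

namespace Vale.Agent.P210G

variable {n : ℕ} {M : Type} [Mf0 n M] {g : Fld n M} {v : Fin n → M → ℝ} {P ζ : M → ℝ}
  {O K : Set M} {a θ ε : ℝ}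

/-- the operator `-a Δ + R - P` is nonnegative on `O` -/
def Spec (g : Fld n M) (P : M → ℝ) (a : ℝ) (O : Set M) : Prop :=
  ∀ ζ : M → ℝ, Smooth ζ → HasCompactSupport ζ → tsupport ζ ⊆ O →
    0 ≤ ∫ x, (a * ip g ζ ζ x + (scal g x - P x) * ζ x ^ 2) ∂vol g

theorem spec_int (hg : Met g) (hP : Continuous P) (hζ : Smooth ζ) (hc : HasCompactSupport ζ)
    (a : ℝ) : Integrable (fun x => a * ip g ζ ζ x + (scal g x - P x) * ζ x ^ 2) (vol g) :=
  hg.integrable_supp ((continuous_const.mul (hg.cont_ip hζ.one hζ.one)).add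
    ((hg.sm_scal.cont.sub hP).mul (hζ.cont.pow 2)))
    ((supp_mul_left (supp_ip hc g ζ)).add (supp_mul_left (supp_sq hc)))

theorem Spec.mono {O' : Set M} {P' : M → ℝ} {a' : ℝ} (h : Spec g P a O) (hg : Met g)
    (hP : Continuous P) (hP' : Continuous P') (hO : O' ⊆ O) (ha : a ≤ a')
    (hPP : ∀ x ∈ O', P' x ≤ P x) : Spec g P' a' O' := fun ζ hζ hc hs =>
  (h ζ hζ hc (hs.trans hO)).trans (integral_mono (spec_int hg hP hζ hc a)
    (spec_int hg hP' hζ hc a') fun x => by
      have h1 := mul_le_mul_of_nonneg_right ha (hg.ip_nonneg ζ x)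
      by_cases hx : x ∈ tsupport ζ
      · have h2 := mul_le_mul_of_nonneg_right (hPP x (hs hx)) (sq_nonneg (ζ x))
        simp only
        linarith
      · simp only [image_eq_zero_of_notMem_tsupport hx]
        linarith)

/-- a lower bound for the scalar curvature of a state gives the spectral bound -/
theorem spec_of_Rv (hg : Met g) (hv : CC ∞ v) (hP : Continuous P) (hθ : -1 < θ)
    (h : ∀ x ∈ O, P x + θ * iv g v v x ≤ Rv g v x) : Spec g P (4 / (1 + θ)) O := by
  intro ζ hζ hc hs
  have t0 : 0 < 1 + θ := by linarith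
  have s2 : Smooth fun x => ζ x ^ 2 := CD.pow hζ 2
  have sv := cv_sh hg le_rfl hv
  have k1 := hg.ibp_dv' s2.llip (supp_sq hc) (sv.of_le one_le_oo)
  have e1 : ∀ x, ∑ i, pd i (fun x => ζ x ^ 2) x * sh g v i x = 2 * ζ x * iv g (df ζ) v x :=
    fun x => by
      have : (fun x => ζ x ^ 2) = fun x => ζ x * ζ x := funext fun x => sq _
      rw [iv_eq_ev, ev, Finset.mul_sum, this]
      exact Finset.sum_congr rfl fun i _ => by rw [pd_mul (hζ.diff x) (hζ.diff x), df]; ring
  simp only [e1] at k1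
  have i1 : Integrable (fun x => ζ x ^ 2 * dv g (sh g v) x) (vol g) :=
    hg.integrable_supp (s2.cont.mul (hg.sm_dv sv).cont) (supp_mul_right (supp_sq hc))
  have i2 : Integrable (fun x => 2 * ζ x * iv g (df ζ) v x) (vol g) :=
    hg.integrable_supp ((continuous_const.mul hζ.cont).mul
      (cd_iv hg le_rfl (cc_df hζ) hv).continuous) (supp_mul_right (supp_mul_left hc))
  have k2 := integral_mono ((i1.add i2).const_mul (-2)) (spec_int hg hP hζ hc (4 / (1 + θ)))
    fun x => by
      by_cases hx : x ∈ tsupport ζ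
      · have h1 := mul_le_mul_of_nonneg_right (h x (hs hx)) (sq_nonneg (ζ x))
        have h2 := two_iv_le hg (fun i y => 2 * df ζ i y) (fun i y => ζ y * v i y) x
          (inv_pos.2 t0)
        have q1 : iv g (fun i y => 2 * df ζ i y) (fun i y => ζ y * v i y) x =
          2 * ζ x * iv g (df ζ) v x := iv_smul (fun _ => rfl) fun _ => rfl
        have q2 : iv g (fun i y => 2 * df ζ i y) (fun i y => 2 * df ζ i y) x =
          2 * 2 * ip g ζ ζ x := iv_smul (a := df ζ) (b := df ζ) (fun _ => rfl) fun _ => rfl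
        have q3 : iv g (fun i y => ζ y * v i y) (fun i y => ζ y * v i y) x =
          ζ x * ζ x * iv g v v x := iv_smul (fun _ => rfl) fun _ => rfl
        rw [q1, q2, q3, div_inv_eq_mul] at h2
        have h3 := neg_abs_le (2 * ζ x * iv g (df ζ) v x)
        rw [Rv] at h1
        simp only [Pi.add_apply, div_eq_mul_inv]
        linarith
      · have h1 := mul_nonneg (show 0 ≤ 4 / (1 + θ) by positivity) (hg.ip_nonneg ζ x)
        simp only [Pi.add_apply, image_eq_zero_of_notMem_tsupport hx]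
        linarith
  rw [integral_const_mul, integral_add' i1 i2, k1] at k2
  linarith

/-- a positive supersolution near a compact set -/
theorem Spec.pos [CompactSpace M] (h : Spec g P a O) (hn : 0 < n) (hg : Met g) (hP : Smooth P)
    (ha : 0 < a) (hO : IsOpen O) (hK : IsCompact K) (hKO : K ⊆ O) (hε : 0 < ε) :
    ∃ u, Smooth u ∧ (∀ x, 0 < u x) ∧ ∀ x ∈ K, a * lap g u x = (scal g x - P x + ε) * u x - a := by
  obtain ⟨ψ, s1, -, s2, s3, s4⟩ := exists_cut hK hO hKO
  have sW : Smooth fun x => (scal g x - P x) * ψ x ^ 2 / a - ψ x * lap g ψ x + ε / a :=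
    CD.add (CD.sub (CD.div_const (CD.mul (CD.sub hg.sm_scal hP) (CD.pow s1 2)) a)
      (CD.mul s1 (hg.sm_lap s1))) cd_const
  obtain ⟨u, u1, u2⟩ := P366D.pos subs hn hg (U := fun _ => 1) cd_const (fun _ => one_pos) sW
    (c := ε / a) (by positivity) fun ζ hζ => by
      have it : ∀ {f : M → ℝ}, Continuous f → Integrable f (vol g) := fun hf =>
        hg.integrable_supp hf (.of_compactSpace _)
      have s5 : Smooth fun x => ψ x * ζ x := CD.mul s1 hζ
      have s6 : Smooth fun x => ζ x * (ψ x * ζ x) := CD.mul hζ s5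
      have k1 := h _ s5 (.of_compactSpace _) ((tsupport_mul_subset_left).trans s2)
      have k2 := hg.ibp_lap' s6.llip (.of_compactSpace _) s1.two
      have i1 := spec_int hg hP.cont s5 (.of_compactSpace _) a
      have i2 := it (s6.cont.mul (hg.cont_lap s1.two))
      have i3 := it (hg.cont_ip s6.one s1.one)
      have i4 := it (hζ.cont.pow 2)
      have i5 := it ((hg.cont_ip hζ.one hζ.one).add (sW.cont.mul (hζ.cont.pow 2)))
      have k3 := integral_mono (((i4.const_mul (ε / a)).add (i1.const_mul a⁻¹)).sub (i2.add i3))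
        i5 fun x => by
          have := mul_nonneg (show 0 ≤ 1 - ψ x ^ 2 by nlinarith [(s3 x).1, (s3 x).2])
            (hg.ip_nonneg ζ x)
          simp only [Pi.add_apply, Pi.sub_apply, Pi.mul_apply, Pi.pow_apply,
            ip_mul_left (hζ.diff x) (s5.diff x), ip_mul_left (s1.diff x) (hζ.diff x),
            ip_mul_right (s1.diff x) (hζ.diff x), hg.ip_sy ψ ζ x, mul_add,
            inv_mul_cancel_left₀ ha.ne', div_eq_inv_mul]
          linarith
      rw [integral_sub' ((i4.const_mul _).add (i1.const_mul _)) (i2.add i3),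
        integral_add' (i4.const_mul _) (i1.const_mul _), integral_add' i2 i3, integral_const_mul,
        integral_const_mul] at k3
      have k4 := mul_nonneg (inv_pos.2 ha).le k1
      simp only [Pi.add_apply, Pi.mul_apply, Pi.pow_apply, one_pow, one_mul] at k3 ⊢
      linarith
  refine ⟨u, u1, fun x => (u2 x).1, fun x hx => ?_⟩
  have := (u2 x).2
  rw [wl_one, lap_congr (s4 x hx), lap_const, (s4 x hx).eq_of_nhds] at this
  rw [this]
  field_simp
  ring

/-- the weight `t log u` -/
theorem Rf_log (hg : Met g) {u : M → ℝ} {x : M} (hu : CAt 2 u x) (h0 : 0 < u x) (t : ℝ) :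
    P366D.Rf g (fun y => t * Real.log (u y)) x =
      scal g x - 2 * t * (lap g u x / u x) + (2 * t - t ^ 2) * (ip g u u x / u x ^ 2) ∧
    ip g (fun y => t * Real.log (u y)) (fun y => t * Real.log (u y)) x =
      t ^ 2 * (ip g u u x / u x ^ 2) := by
  have d1 : HasDerivAt (fun s => t * Real.log s) (t * (u x)⁻¹) (u x) :=
    (Real.hasDerivAt_log h0.ne').const_mul t
  have h1 : ip g (fun y => t * Real.log (u y)) (fun y => t * Real.log (u y)) x =
      t ^ 2 * (ip g u u x / u x ^ 2) := by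
    rw [ip_comp_left d1 (diff2 hu), ip_comp_right d1 (diff2 hu)]
    field_simp
  have d2 : deriv (deriv Real.log) (u x) = -(u x ^ 2)⁻¹ := by
    rw [Real.deriv_log', deriv_inv]
  refine ⟨?_, h1⟩
  rw [P366D.Rf, h1, lap_const_mul, hg.lap_comp hu (Real.contDiffAt_log.2 h0.ne'), d2,
    Real.deriv_log]
  ring

/-- **the spectral bound gives a gradient drift** -/
theorem grad_of_spec [CompactSpace M] (h : Spec g P (4 / (1 + θ)) O) (hn : 0 < n) (hg : Met g)
    (hP : Smooth P) (hθ : -1 < θ) (hO : IsOpen O) (hK : IsCompact K) (hKO : K ⊆ O) (hε : 0 < ε) :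
    ∃ f, Smooth f ∧ ∀ x ∈ K, P x - ε + θ * ip g f f x < P366D.Rf g f x := by
  have t0 : 0 < 1 + θ := by linarith
  obtain ⟨u, u1, u2, u3⟩ := h.pos hn hg hP (by positivity) hO hK hKO hε
  refine ⟨fun y => 2 / (1 + θ) * Real.log (u y),
    CD.mul cd_const (CD.log u1 fun x => (u2 x).ne'), fun x hx => ?_⟩
  obtain ⟨e1, e2⟩ := Rf_log hg (u1.c2 x) (u2 x) (2 / (1 + θ))
  have h0 := u2 x
  have e3 : 2 * (2 / (1 + θ)) * (lap g u x / u x) =
      scal g x - P x + ε - 4 / (1 + θ) / u x := by
    rw [show 2 * (2 / (1 + θ)) = 4 / (1 + θ) by ring, ← mul_div_assoc, u3 x hx]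
    field_simp
  have e4 : θ * (2 / (1 + θ)) ^ 2 = 2 * (2 / (1 + θ)) - (2 / (1 + θ)) ^ 2 := by
    field_simp; ring
  have : 0 < 4 / (1 + θ) / u x := by positivity
  rw [e1, e2, e3, ← mul_assoc, e4]
  linarith

/-- **every drift can be replaced by a gradient drift** near a compact set of a closed manifold -/
theorem grad_of_Rv [CompactSpace M] (hn : 0 < n) (hg : Met g) (hv : CC ∞ v) (hP : Smooth P)
    (hθ : -1 < θ) (hO : IsOpen O) (hK : IsCompact K) (hKO : K ⊆ O) (hε : 0 < ε)
    (h : ∀ x ∈ O, P x + θ * iv g v v x ≤ Rv g v x) :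
    ∃ f, Smooth f ∧ ∀ x ∈ K, P x - ε + θ * ip g f f x < P366D.Rf g f x :=
  grad_of_spec (spec_of_Rv hg hv hP.cont hθ h) hn hg hP hθ hO hK hKO hε

end Vale.Agent.P210G
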